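import Vale.Agent.P219.CH.Cert.Seven.Coeff
import Vale.Agent.P219.CH.Cert.Five.Fun

/-!
P219: the profile in dimension seven on `(0, 1]` (the variable is `x = r/2`): pole plus regular part,
the differential equation, sign facts and the end-point weight.
-/

namespace Vale.Agent.P219.CH.Cert.Seven

open Filter Topology Set
open Five (PolyBdd dT D1 D3 pser tser tser_eq pser_D1 pser_eq_add hasDerivAt_pser pser_idx pser_idx2
  polyBdd_idx mem_nhds_ball continuousOn_tser tser_bound)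

noncomputable section

/-- The regular part of the profile. -/
def Rf (x : ℝ) : ℝ := tser u x / (1 + x) ^ 3

/-- Its derivative. -/
def Rd (x : ℝ) : ℝ := -tser (dT u) x / (1 + x) ^ 3

/-- `-g'' c / c = 4/5 + c² Gf c`. -/
def Gf (x : ℝ) : ℝ := tser (D1 Gs) x / (1 + x) ^ 4

/-- The profile. -/
def h0 (x : ℝ) : ℝ := 1 / (144 * x ^ 2) + Rf x

/-- Its derivative. -/
def h1 (x : ℝ) : ℝ := -(1 / (72 * x ^ 3)) + Rd x

/-- Its second derivative. -/
def h2 (x : ℝ) : ℝ :=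
  (x * (4 / 5 + x ^ 2 * Gf x) - 192 * a * x ^ 2 + (-256 * x ^ 2 + 192 * x ^ 4) * h1 x +
    (-320 * x + 768 * x ^ 3) * h0 x) / (32 * x ^ 3)

lemma one_add_pos {x : ℝ} (hx : |x| < 1) : 0 < 1 + x := by linarith [(abs_lt.1 hx).1]

lemma Rf_eq {x : ℝ} (hx : |x| < 1) : Rf x = pser u x := by
  have := one_add_pos hx
  rw [Rf, tser_eq polyBdd_u hx]
  field_simp

lemma Rd_eq {x : ℝ} (hx : |x| < 1) : Rd x = -pser (dT u) x := by
  have := one_add_pos hx
  rw [Rd, tser_eq polyBdd_u.dT hx]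
  field_simp

lemma Gf_eq {x : ℝ} (hx : |x| < 1) : Gf x = pser Gs x := by
  have := one_add_pos hx
  rw [Gf, tser_eq polyBdd_Gs.D1 hx, pser_D1 polyBdd_Gs hx]
  field_simp

lemma hasDerivAt_Rf {x : ℝ} (hx : |x| < 1) : HasDerivAt Rf (Rd x) x := by
  rw [Rd_eq hx]
  exact (hasDerivAt_pser polyBdd_u hx).congr_of_eventuallyEq
    (eventually_of_mem (mem_nhds_ball hx) fun y hy => Rf_eq hy)

lemma hasDerivAt_h0 {x : ℝ} (hx : x ∈ Ioo (0 : ℝ) 1) : HasDerivAt h0 (h1 x) x := by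
  have hx' : |x| < 1 := by rw [abs_of_pos hx.1]; exact hx.2
  have hs : HasDerivAt (fun y : ℝ => 1 / (144 * y ^ 2)) (-(1 / (72 * x ^ 3))) x := by
    have := hx.1.ne'
    refine ((hasDerivAt_const x (1 : ℝ)).div ((hasDerivAt_pow 2 x).const_mul 144)
      (by positivity)).congr_deriv ?_
    push_cast
    field_simp
    ring
  exact hs.add (hasDerivAt_Rf hx')

/-- The coefficient identity behind `h2`. -/
lemma comb_eq {x : ℝ} (hx : |x| < 1) :
    32 * (x ^ 2 * pser (dT (dT u)) x) - 256 * (x * pser (dT u) x) + 320 * pser u x =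
      52 / 15 - 192 * a * x +
        x ^ 2 * (pser Gs x - 192 * (x * pser (dT u) x) + 768 * pser u x) := by
  set S : ℕ → ℝ := fun j => (32 * ((j : ℝ) * ((j : ℝ) - 1)) + 256 * j + 320) * u j with hS
  set T : ℕ → ℝ := fun j => Gs j + (192 * (j : ℝ) + 768) * u j with hT
  have hSb : PolyBdd S := polyBdd_u.mul_poly (D := 600) (m := 2) fun j => by
    have h : (0 : ℝ) ≤ j := Nat.cast_nonneg j
    rw [abs_of_nonneg (by nlinarith)]; nlinarith
  have i2 := (polyBdd_u.mul_poly (f := fun j => (j : ℝ) * ((j : ℝ) - 1)) (D := 1) (m := 2)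
    fun j => by
      have : (0 : ℝ) ≤ j := Nat.cast_nonneg j
      rw [abs_le]; constructor <;> nlinarith).hasSum hx
  have i1 := (polyBdd_idx polyBdd_u).hasSum hx
  have i0 := polyBdd_u.hasSum hx
  have iG := polyBdd_Gs.hasSum hx
  have s1 : pser S x =
      32 * (x ^ 2 * pser (dT (dT u)) x) - 256 * (x * pser (dT u) x) + 320 * pser u x := by
    rw [← pser_idx2 polyBdd_u hx, ← neg_neg (x * pser (dT u) x), ← pser_idx polyBdd_u hx]
    rw [(hSb.hasSum hx).unique ((((i2.mul_left 32).add (i1.mul_left 256)).add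
      (i0.mul_left 320)).congr_fun fun j => by simp only [S]; ring)]
    ring
  have t1 : pser T x = pser Gs x - 192 * (x * pser (dT u) x) + 768 * pser u x := by
    rw [← neg_neg (x * pser (dT u) x), ← pser_idx polyBdd_u hx]
    rw [show pser T x = _ from (((iG.add (i1.mul_left 192)).add (i0.mul_left 768)).congr_fun
      fun j => show T j * (-x) ^ j = _ by simp only [T]; ring).tsum_eq]
    ring
  rw [← s1, ← t1, pser_eq_add hSb hx, pser_eq_add hSb.succ hx]
  have e : (fun j => S (j + 1 + 1)) = T := funext fun j => by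
    simp only [S, T, Gs, u]
    push_cast
    field_simp
    ring
  rw [e]
  simp only [S, u]
  push_cast
  ring

lemma h2_eq {x : ℝ} (hx : x ∈ Ioo (0 : ℝ) 1) :
    h2 x = 1 / (24 * x ^ 4) + pser (dT (dT u)) x := by
  have hx' : |x| < 1 := by rw [abs_of_pos hx.1]; exact hx.2
  have := hx.1.ne'
  rw [h2, h1, h0, Gf_eq hx', Rd_eq hx', Rf_eq hx', div_eq_iff (by positivity)]
  field_simp
  linear_combination (-(1244160 * x ^ 2) : ℝ) * comb_eq hx'

lemma hasDerivAt_h1 {x : ℝ} (hx : x ∈ Ioo (0 : ℝ) 1) : HasDerivAt h1 (h2 x) x := by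
  have hx' : |x| < 1 := by rw [abs_of_pos hx.1]; exact hx.2
  rw [h2_eq hx]
  have hs : HasDerivAt (fun y : ℝ => -(1 / (72 * y ^ 3))) (1 / (24 * x ^ 4)) x := by
    have := hx.1.ne'
    refine ((hasDerivAt_const x (1 : ℝ)).div ((hasDerivAt_pow 3 x).const_mul 72)
      (by positivity)).neg.congr_deriv ?_
    push_cast
    field_simp
    ring
  refine hs.add ?_
  exact ((hasDerivAt_pser polyBdd_u.dT hx').neg.congr_deriv (neg_neg _)).congr_of_eventuallyEq
    (eventually_of_mem (mem_nhds_ball hx') fun y hy => Rd_eq hy)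

/-- The differential equation. -/
lemma ode {x : ℝ} (hx : x ∈ Ioo (0 : ℝ) 1) :
    x ^ 2 * (1 - x ^ 2) * h2 x + (11 - 17 * x ^ 2) * x * h1 x + (25 - 67 * x ^ 2) * h0 x =
      1 / (16 * x ^ 2) - 12 * a * x := by
  have hx' : |x| < 1 := by rw [abs_of_pos hx.1]; exact hx.2
  rw [h2_eq hx, h1, h0, Rd_eq hx', Rf_eq hx']
  set v : ℕ → ℝ := fun j => ((j : ℝ) + 5) ^ 2 * u j
  set z : ℕ → ℝ := fun j => (((j : ℝ) + 8) ^ 2 + 3) * u j
  have hv : PolyBdd v := polyBdd_u.mul_poly (D := 25) (m := 2) fun j => by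
    have : (0 : ℝ) ≤ j := Nat.cast_nonneg j
    rw [abs_of_nonneg (by positivity)]; nlinarith
  have hz : PolyBdd z := polyBdd_u.mul_poly (D := 67) (m := 2) fun j => by
    have : (0 : ℝ) ≤ j := Nat.cast_nonneg j
    rw [abs_of_nonneg (by positivity)]; nlinarith
  have i2 := (polyBdd_u.mul_poly (f := fun j => (j : ℝ) * ((j : ℝ) - 1)) (D := 1) (m := 2)
    fun j => by
      have : (0 : ℝ) ≤ j := Nat.cast_nonneg j
      rw [abs_le]; constructor <;> nlinarith).hasSum hx'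
  have i1 := (polyBdd_idx polyBdd_u).hasSum hx'
  have i0 := polyBdd_u.hasSum hx'
  have v1 : pser v x = x ^ 2 * pser (dT (dT u)) x - 11 * (x * pser (dT u) x) + 25 * pser u x := by
    rw [← pser_idx2 polyBdd_u hx', ← neg_neg (x * pser (dT u) x), ← pser_idx polyBdd_u hx']
    refine (hv.hasSum hx').unique ?_
    convert (i2.add (i1.mul_left 11)).add (i0.mul_left 25) using 1
    · funext j; simp only [v]; ring
    · ring
  have z1 : pser z x = x ^ 2 * pser (dT (dT u)) x - 17 * (x * pser (dT u) x) + 67 * pser u x := by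
    rw [← pser_idx2 polyBdd_u hx', ← neg_neg (x * pser (dT u) x), ← pser_idx polyBdd_u hx']
    refine (hz.hasSum hx').unique ?_
    convert (i2.add (i1.mul_left 17)).add (i0.mul_left 67) using 1
    · funext j; simp only [z]; ring
    · ring
  have vz : pser v x = 39 / 144 - 12 * a * x + x ^ 2 * pser z x := by
    rw [pser_eq_add hv hx', pser_eq_add hv.succ hx']
    have : (fun j => v (j + 1 + 1)) = z := funext fun j => by
      simp only [v, z, u]
      push_cast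
      field_simp
      ring
    rw [this]
    simp only [v, u]
    push_cast
    ring
  have := hx.1.ne'
  field_simp
  linear_combination 3981312 * x ^ 2 * (vz - v1 + x ^ 2 * z1)

lemma continuousOn_Rf : ContinuousOn Rf (Icc 0 1) :=
  ((continuousOn_tser near_u.1).mono (Icc_subset_Icc (by norm_num) le_rfl)).div (by fun_prop)
    fun x hx => pow_ne_zero 3 (by linarith [hx.1])

lemma continuousOn_Rd : ContinuousOn Rd (Icc 0 1) :=
  ((continuousOn_tser near_du.1).mono (Icc_subset_Icc (by norm_num) le_rfl)).neg.div (by fun_prop)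
    fun x hx => pow_ne_zero 3 (by linarith [hx.1])

lemma continuousOn_Gf : ContinuousOn Gf (Icc 0 1) :=
  ((continuousOn_tser near_Gs.1).mono (Icc_subset_Icc (by norm_num) le_rfl)).div (by fun_prop)
    fun x hx => pow_ne_zero 4 (by linarith [hx.1])

lemma continuousOn_h0 : ContinuousOn h0 (Ioc 0 1) :=
  (continuousOn_const.div (by fun_prop) fun x hx => by have := hx.1; positivity).add
    (continuousOn_Rf.mono Ioc_subset_Icc_self)

lemma continuousOn_h1 : ContinuousOn h1 (Ioc 0 1) :=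
  (continuousOn_const.div (by fun_prop) fun x hx => by have := hx.1; positivity).neg.add
    (continuousOn_Rd.mono Ioc_subset_Icc_self)

lemma continuousOn_h2 : ContinuousOn h2 (Ioc 0 1) := by
  have := continuousOn_h0
  have := continuousOn_h1
  have := continuousOn_Gf.mono (Ioc_subset_Icc_self (a := (0 : ℝ)) (b := 1))
  unfold h2
  refine ContinuousOn.div (by fun_prop) (by fun_prop) fun x hx => ?_
  have := hx.1
  positivity

lemma u_series {x : ℝ} (hx : x ∈ Icc (0 : ℝ) 1) :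
    13 / 1200 + 19684 / 1000000 * x + 8864 / 1000000 * x ^ 2 - 40 / 100000 * x ^ 3 ≤ tser u x ∧
      tser u x ≤ 10834 / 1000000 + 19686 / 1000000 * x + 8868 / 1000000 * x ^ 2 +
        40 / 100000 * x ^ 3 := by
  have hb := abs_le.1 ((tser_bound near_u.1 hx).trans
    (mul_le_mul_of_nonneg_right near_u.2 (pow_nonneg hx.1 3)))
  obtain ⟨e0, e1, e2, -⟩ := heads
  rw [e0, e1, e2] at hb
  obtain ⟨al, ah⟩ := a_bounds
  have := hx.1
  have := sq_nonneg x
  constructor <;> nlinarith [hb.1, hb.2]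

lemma du_series {x : ℝ} (hx : x ∈ Icc (0 : ℝ) 1) :
    12815 / 1000000 + 8820 / 1000000 * x - 160 / 100000 * x ^ 3 ≤ tser (dT u) x ∧
      tser (dT u) x ≤ 12817 / 1000000 + 8824 / 1000000 * x + 40 / 1000000 * x ^ 2 +
        160 / 100000 * x ^ 3 := by
  have hb := abs_le.1 ((tser_bound near_du.1 hx).trans
    (mul_le_mul_of_nonneg_right near_du.2 (pow_nonneg hx.1 3)))
  obtain ⟨-, -, -, e0, e1, e2, -⟩ := heads
  rw [e0, e1, e2] at hb
  obtain ⟨al, ah⟩ := a_bounds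
  have := hx.1
  have := sq_nonneg x
  constructor <;> nlinarith [hb.1, hb.2]

lemma cube_pos {x : ℝ} (hx : x ∈ Icc (0 : ℝ) 1) : 0 < (1 + x) ^ 3 := by
  have := hx.1; positivity

lemma Rf_bounds {x : ℝ} (hx : x ∈ Icc (0 : ℝ) 1) : 45 / 10000 ≤ Rf x ∧ Rf x ≤ 11 / 1000 := by
  obtain ⟨hl, hh⟩ := u_series hx
  obtain ⟨p2, p3, p0⟩ := Five.pow_bounds hx
  rw [Rf, le_div_iff₀ (cube_pos hx), div_le_iff₀ (cube_pos hx)]
  constructor <;> nlinarith [hx.1, hx.2]

lemma Rd_bounds {x : ℝ} (hx : x ∈ Icc (0 : ℝ) 1) : -(14 / 1000) ≤ Rd x ∧ Rd x ≤ 0 := by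
  obtain ⟨hl, hh⟩ := du_series hx
  obtain ⟨p2, p3, p0⟩ := Five.pow_bounds hx
  rw [Rd, le_div_iff₀ (cube_pos hx), div_le_iff₀ (cube_pos hx)]
  constructor <;> nlinarith [hx.1, hx.2]

lemma Rd_ge_Rf {x : ℝ} (hx : x ∈ Icc (0 : ℝ) 1) : 0 ≤ Rd x + 4 * Rf x := by
  obtain ⟨hl, hh⟩ := du_series hx
  obtain ⟨ul, uh⟩ := u_series hx
  obtain ⟨p2, p3, p0⟩ := Five.pow_bounds hx
  rw [Rd, Rf, ← mul_div_assoc, ← add_div]
  exact div_nonneg (by nlinarith [hx.1, hx.2]) (cube_pos hx).le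

lemma Gf_nonneg {x : ℝ} (hx : x ∈ Icc (0 : ℝ) 1) : 0 ≤ Gf x := by
  have hb := (abs_le.1 ((tser_bound near_Gs.1 hx).trans
    (mul_le_mul_of_nonneg_right near_Gs.2 (pow_nonneg hx.1 3)))).1
  obtain ⟨-, -, -, -, -, -, e0, e1, e2⟩ := heads
  obtain ⟨p2, p3, p0⟩ := Five.pow_bounds hx
  refine div_nonneg ?_ (by have := hx.1; positivity)
  nlinarith [mul_le_mul_of_nonneg_right e1 hx.1, mul_le_mul_of_nonneg_right e2 (sq_nonneg x),
    hx.1, hx.2]

lemma h0_nonneg {x : ℝ} (hx : x ∈ Icc (0 : ℝ) 1) : 0 ≤ h0 x := by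
  have : 0 ≤ Rf x := by linarith [(Rf_bounds hx).1]
  unfold h0; positivity

lemma h1_nonpos {x : ℝ} (hx : x ∈ Icc (0 : ℝ) 1) : h1 x ≤ 0 := by
  have : 0 ≤ 1 / (72 * x ^ 3) := by have := hx.1; positivity
  unfold h1; linarith [(Rd_bounds hx).2]

lemma h0_one_bounds : 1180 / 100000 ≤ h0 1 ∧ h0 1 ≤ 1194 / 100000 := by
  obtain ⟨hl, hh⟩ := u_series (x := 1) ⟨zero_le_one, le_rfl⟩
  have e : h0 1 = 1 / 144 + tser u 1 / 8 := by norm_num [h0, Rf]
  rw [e]
  constructor <;> linarith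

lemma left_nhds_Ioc : Ioc (0 : ℝ) 1 ∈ 𝓝[<] (1 : ℝ) :=
  mem_of_superset (Ioo_mem_nhdsLT one_pos) Ioo_subset_Ioc_self

/-- The value of the derivative at the singular point. -/
lemma h1_one : h1 1 = 2 * a - 1 / 96 - 7 * h0 1 := by
  set φ : ℝ → ℝ := fun x => x ^ 2 * (1 - x ^ 2) * h2 x + (11 - 17 * x ^ 2) * x * h1 x +
    (25 - 67 * x ^ 2) * h0 x - (1 / (16 * x ^ 2) - 12 * a * x) with hφ
  have hev : φ =ᶠ[𝓝[<] (1 : ℝ)] fun _ => 0 := by
    filter_upwards [Ioo_mem_nhdsLT (show (0 : ℝ) < 1 by norm_num)] with x hx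
    simp only [hφ, ode hx, sub_self]
  have hc : ContinuousOn φ (Ioc 0 1) := by
    have := continuousOn_h0
    have := continuousOn_h1
    have := continuousOn_h2
    have : ContinuousOn (fun x : ℝ => 1 / (16 * x ^ 2)) (Ioc 0 1) :=
      continuousOn_const.div (by fun_prop) fun x hx => by have := hx.1; positivity
    rw [hφ]; fun_prop
  have h : φ 1 = 0 :=
    tendsto_nhds_unique (f := φ) (l := 𝓝[<] (1 : ℝ))
      ((hc 1 ⟨one_pos, le_rfl⟩).mono_left (nhdsWithin_le_of_mem left_nhds_Ioc))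
      (tendsto_const_nhds.congr' hev.symm)
  simp only [hφ] at h
  linarith

lemma hasDerivWithinAt_h0_one : HasDerivWithinAt h0 (h1 1) (Iic 1) 1 := by
  refine hasDerivWithinAt_Iic_of_tendsto_deriv (s := Ioo 0 1)
    (fun x hx => (hasDerivAt_h0 hx).differentiableAt.differentiableWithinAt)
    ((continuousOn_h0 1 ⟨one_pos, le_rfl⟩).mono Ioo_subset_Ioc_self)
    (Ioo_mem_nhdsLT one_pos) ?_
  refine Tendsto.congr' (f₁ := h1) ?_ ?_
  · filter_upwards [Ioo_mem_nhdsLT (show (0 : ℝ) < 1 by norm_num)] with x hx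
    exact (hasDerivAt_h0 hx).deriv.symm
  · exact (continuousOn_h1 1 ⟨one_pos, le_rfl⟩).mono_left (nhdsWithin_le_of_mem left_nhds_Ioc)

/-- The weight of an end point, on `[0, 1]`. -/
def gf (c : ℝ) : ℝ :=
  -(2 / 3) * c - c ^ 3 + 32 * a * c ^ 4 + 16 * c ^ 4 * (1 - c ^ 2) * Rd c +
    16 * c ^ 3 * (5 - 11 * c ^ 2) * Rf c

/-- Its derivative. -/
def gd (c : ℝ) : ℝ :=
  -(2 / 3) + 4 / 3 * c ^ 2 - 64 * a * c ^ 3 - 32 * c ^ 3 * Rd c +
    (-160 * c ^ 2 + 192 * c ^ 4) * Rf c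

lemma gf_eq {c : ℝ} (hc : c ≠ 0) : gf c =
    -c + 32 * a * c ^ 4 + 16 * c ^ 4 * (1 - c ^ 2) * h1 c + 16 * c ^ 3 * (5 - 11 * c ^ 2) * h0 c := by
  simp only [gf, h1, h0]
  field_simp
  ring

lemma gd_eq {c : ℝ} (hc : c ≠ 0) :
    gd c = -64 * a * c ^ 3 - 32 * c ^ 3 * h1 c + (-160 * c ^ 2 + 192 * c ^ 4) * h0 c := by
  simp only [gd, h1, h0]
  field_simp
  ring

lemma continuousOn_gf : ContinuousOn gf (Icc 0 1) := by
  have := continuousOn_Rd
  have := continuousOn_Rf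
  unfold gf
  fun_prop

lemma continuousOn_gd : ContinuousOn gd (Icc 0 1) := by
  have := continuousOn_Rd
  have := continuousOn_Rf
  unfold gd
  fun_prop

lemma hasDerivAt_gf {c : ℝ} (hc : c ∈ Ioo (0 : ℝ) 1) : HasDerivAt gf (gd c) c := by
  have d0 := hasDerivAt_h0 hc
  have d1 := hasDerivAt_h1 hc
  have h := ((((hasDerivAt_id c).neg).add ((hasDerivAt_pow 4 c).const_mul (32 * a))).add
    ((((hasDerivAt_pow 4 c).const_mul 16).mul ((hasDerivAt_pow 2 c).const_sub 1)).mul d1)).add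
    ((((hasDerivAt_pow 3 c).const_mul 16).mul (((hasDerivAt_pow 2 c).const_mul 11).const_sub 5)).mul d0)
  refine (h.congr_of_eventuallyEq ?_).congr_deriv ?_
  · filter_upwards [Ioo_mem_nhds hc.1 hc.2] with y hy
    simp [gf_eq hy.1.ne']
  · rw [gd_eq hc.1.ne']
    simp only [Pi.mul_apply]
    have e : 16 * c ^ 2 * (1 / (16 * c ^ 2)) = 1 := by
      have := hc.1.ne'
      field_simp
    push_cast
    linear_combination 16 * c ^ 2 * ode hc + e

lemma hasDerivAt_gd {c : ℝ} (hc : c ∈ Ioo (0 : ℝ) 1) :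
    HasDerivAt gd (-(c * (4 / 5 + c ^ 2 * Gf c))) c := by
  have d0 := hasDerivAt_h0 hc
  have d1 := hasDerivAt_h1 hc
  have h := (((hasDerivAt_pow 3 c).const_mul (-64 * a)).sub
    (((hasDerivAt_pow 3 c).const_mul 32).mul d1)).add
    ((((hasDerivAt_pow 2 c).const_mul (-160)).add ((hasDerivAt_pow 4 c).const_mul 192)).mul d0)
  refine (h.congr_of_eventuallyEq ?_).congr_deriv ?_
  · filter_upwards [Ioo_mem_nhds hc.1 hc.2] with y hy
    simp [gd_eq hy.1.ne']
  · simp only [h2, Pi.add_apply]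
    have := hc.1.ne'
    field_simp
    push_cast
    ring

lemma deriv_gd_nonpos {c : ℝ} (hc : c ∈ Icc (0 : ℝ) 1) : -(c * (4 / 5 + c ^ 2 * Gf c)) ≤ 0 := by
  have := Gf_nonneg hc
  have := hc.1
  rw [neg_nonpos]
  positivity

lemma concaveOn_gf : ConcaveOn ℝ (Icc 0 1) gf := by
  refine concaveOn_of_hasDerivWithinAt2_nonpos (f' := gd)
    (f'' := fun c => -(c * (4 / 5 + c ^ 2 * Gf c)))
    (convex_Icc 0 1) continuousOn_gf ?_ ?_ ?_ <;> rw [interior_Icc] <;> intro c hc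
  · exact (hasDerivAt_gf hc).hasDerivWithinAt
  · exact (hasDerivAt_gd hc).hasDerivWithinAt
  · exact deriv_gd_nonpos (Ioo_subset_Icc_self hc)

lemma gd_nonpos {c : ℝ} (hc : c ∈ Icc (0 : ℝ) 1) : gd c ≤ 0 := by
  have h : gd c ≤ gd 0 := by
    refine antitoneOn_of_hasDerivWithinAt_nonpos (f' := fun c => -(c * (4 / 5 + c ^ 2 * Gf c)))
      (convex_Icc 0 1) continuousOn_gd ?_ ?_ ⟨le_rfl, zero_le_one⟩ hc hc.1 <;>
      rw [interior_Icc] <;> intro y hy
    · exact (hasDerivAt_gd hy).hasDerivWithinAt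
    · exact deriv_gd_nonpos (Ioo_subset_Icc_self hy)
  refine h.trans ?_
  norm_num [gd]

lemma gf_nonpos {c : ℝ} (hc : c ∈ Icc (0 : ℝ) 1) : gf c ≤ 0 := by
  have h : gf c ≤ gf 0 := by
    refine antitoneOn_of_hasDerivWithinAt_nonpos (f' := gd) (convex_Icc 0 1)
      continuousOn_gf ?_ ?_ ⟨le_rfl, zero_le_one⟩ hc hc.1 <;> rw [interior_Icc] <;> intro y hy
    · exact (hasDerivAt_gf hy).hasDerivWithinAt
    · exact gd_nonpos (Ioo_subset_Icc_self hy)
  simpa [gf] using h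

lemma gf_balance :
    ∫ c in (0 : ℝ)..1, gf c * c * (1 - c ^ 2) ^ 2 = 8 * a / 15 - 8 / 105 := by
  set M : ℝ → ℝ := fun c => -(c ^ 3 / 3 - 2 * c ^ 5 / 5 + c ^ 7 / 7) +
    32 * a * (c ^ 6 / 6 - c ^ 8 / 4 + c ^ 10 / 10) +
    16 * (1 - c ^ 2) ^ 3 * (c ^ 3 / 144 + c ^ 5 * Rf c) with hM
  have hc0 := continuousOn_Rf
  have hg := continuousOn_gf
  have h := intervalIntegral.integral_eq_sub_of_hasDerivAt_of_le (f := M)
    (f' := fun c => gf c * c * (1 - c ^ 2) ^ 2) zero_le_one (by rw [hM]; fun_prop) ?_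
    ((by fun_prop : ContinuousOn (fun c => gf c * c * (1 - c ^ 2) ^ 2) (Icc 0 1)).intervalIntegrable_of_Icc
      zero_le_one)
  · rw [h]
    simp [hM]
    ring
  intro c hc
  have d0 := hasDerivAt_Rf (x := c) (by rw [abs_of_pos hc.1]; exact hc.2)
  have h := ((((((hasDerivAt_pow 3 c).div_const 3).sub
    (((hasDerivAt_pow 5 c).const_mul 2).div_const 5)).add ((hasDerivAt_pow 7 c).div_const 7)).neg).add
    (((((hasDerivAt_pow 6 c).div_const 6).sub ((hasDerivAt_pow 8 c).div_const 4)).add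
      ((hasDerivAt_pow 10 c).div_const 10)).const_mul (32 * a))).add
    (((((hasDerivAt_pow 2 c).const_sub 1).pow 3).const_mul 16).mul
      (((hasDerivAt_pow 3 c).div_const 144).add ((hasDerivAt_pow 5 c).mul d0)))
  refine (h.congr_of_eventuallyEq (Eventually.of_forall fun y => ?_)).congr_deriv ?_
  · simp [hM]
  · simp only [gf, Pi.pow_apply, Pi.mul_apply, Pi.add_apply]
    push_cast
    ring

end

end Vale.Agent.P219.CH.Cert.Seven
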