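import Vale.Agent.P219.CH.Cert.Five.Coeff

/-!
P219: the coefficients of the profile in dimension seven. Apart from the pole `1/(144 x²)` the
`j`-th coefficient is a multiple of `q / w q`, `q = j + 5`, with `w q = ∏ₖ (1 - 8/(q+2k)³)`, `k ≥ 1`.
-/

namespace Vale.Agent.P219.CH.Cert.Seven

open Filter Topology Set
open Five (PolyBdd dT D1 D3 diff3_approx sum_inv_cube squeeze tail_split)

noncomputable section

/-- `1 - 8 / (q + 2)³`. -/
def fac (q : ℕ) : ℝ := 1 - 8 / ((q : ℝ) + 2) ^ 3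

/-- Partial products. -/
def wprod : ℕ → ℕ → ℝ
  | _, 0 => 1
  | q, N + 1 => fac q * wprod (q + 2) N

/-- The infinite product. -/
def w (q : ℕ) : ℝ := ⨅ N, wprod q N

/-- Lower rational approximation of `1 / w`. -/
def Plo (x : ℝ) : ℝ :=
  1 + 2 / x ^ 2 - 4 / x ^ 3 + 6 / x ^ 4 - 24 / 5 / x ^ 5 - 5 / x ^ 6

/-- Upper rational approximation of `1 / w`. -/
def Phi (x : ℝ) : ℝ := 1 + 2 / x ^ 2 - 4 / x ^ 3 + 6 / x ^ 4 - 24 / 5 / x ^ 5

lemma fac_nonneg (q : ℕ) : 0 ≤ fac q := by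
  have h : (0 : ℝ) ≤ q := Nat.cast_nonneg q
  rw [fac, sub_nonneg, div_le_one (by positivity)]
  calc (8 : ℝ) = 2 ^ 3 := by norm_num
    _ ≤ _ := pow_le_pow_left₀ two_pos.le (by linarith) 3

lemma fac_le_one (q : ℕ) : fac q ≤ 1 := by
  have : (0 : ℝ) ≤ 8 / ((q : ℝ) + 2) ^ 3 := by positivity
  rw [fac]; linarith

lemma wprod_nonneg (q N : ℕ) : 0 ≤ wprod q N := by
  induction N generalizing q with
  | zero => exact zero_le_one
  | succ N ih => exact mul_nonneg (fac_nonneg q) (ih _)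

lemma wprod_antitone (q : ℕ) : Antitone (wprod q) := by
  refine antitone_nat_of_succ_le fun N => ?_
  induction N generalizing q with
  | zero => simpa [wprod] using fac_le_one q
  | succ N ih => exact mul_le_mul_of_nonneg_left (ih (q + 2)) (fac_nonneg q)

lemma bddBelow_wprod (q : ℕ) : BddBelow (range (wprod q)) :=
  ⟨0, by rintro _ ⟨N, rfl⟩; exact wprod_nonneg q N⟩

lemma tendsto_wprod (q : ℕ) : Tendsto (wprod q) atTop (𝓝 (w q)) :=
  tendsto_atTop_ciInf (wprod_antitone q) (bddBelow_wprod q)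

lemma w_rec (q : ℕ) : w q = fac q * w (q + 2) :=
  tendsto_nhds_unique ((tendsto_wprod q).comp (tendsto_add_atTop_nat 1))
    ((tendsto_wprod (q + 2)).const_mul (fac q))

lemma Plo_step {x : ℝ} (hx : 5 ≤ x) : (1 - 8 / (x + 2) ^ 3) * Plo x ≤ Plo (x + 2) := by
  obtain ⟨t, ht, rfl⟩ : ∃ t, 0 ≤ t ∧ x = 5 + t := ⟨x - 5, by linarith, by ring⟩
  rw [← sub_nonneg, Plo, Plo]
  field_simp
  ring_nf
  positivity

lemma Phi_step {x : ℝ} (hx : 5 ≤ x) : Phi (x + 2) ≤ (1 - 8 / (x + 2) ^ 3) * Phi x := by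
  obtain ⟨t, ht, rfl⟩ : ∃ t, 0 ≤ t ∧ x = 5 + t := ⟨x - 5, by linarith, by ring⟩
  rw [← sub_nonneg, Phi, Phi]
  field_simp
  ring_nf
  positivity

lemma one_le_Phi {x : ℝ} (hx : 5 ≤ x) : 1 ≤ Phi x := by
  obtain ⟨t, ht, rfl⟩ : ∃ t, 0 ≤ t ∧ x = 5 + t := ⟨x - 5, by linarith, by ring⟩
  rw [← sub_nonneg, Phi]
  field_simp
  ring_nf
  positivity

lemma Plo_le {x : ℝ} (hx : 5 ≤ x) : Plo x ≤ 1 + 2 / x := by
  obtain ⟨t, ht, rfl⟩ : ∃ t, 0 ≤ t ∧ x = 5 + t := ⟨x - 5, by linarith, by ring⟩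
  rw [← sub_nonneg, Plo]
  field_simp
  ring_nf
  positivity

lemma Plo_pos {x : ℝ} (hx : 5 ≤ x) : 0 < Plo x := by
  have h : 0 ≤ Plo x - 1 / 2 := by
    obtain ⟨t, ht, rfl⟩ : ∃ t, 0 ≤ t ∧ x = 5 + t := ⟨x - 5, by linarith, by ring⟩
    rw [Plo]
    field_simp
    ring_nf
    positivity
  linarith

lemma wprod_mul_Plo {q : ℕ} (hq : 5 ≤ q) (N : ℕ) :
    wprod q N * Plo q ≤ Plo ((q : ℝ) + 2 * N) := by
  induction N generalizing q with
  | zero => simp [wprod]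
  | succ N ih =>
    have h1 := Plo_step (x := (q : ℝ)) (by exact_mod_cast hq)
    have h2 := ih (q := q + 2) (by omega)
    push_cast at h2 ⊢
    rw [wprod, show (q : ℝ) + 2 * (N + 1) = q + 2 + 2 * N by ring]
    refine le_trans ?_ h2
    calc fac q * wprod (q + 2) N * Plo q = wprod (q + 2) N * (fac q * Plo q) := by ring
      _ ≤ _ := mul_le_mul_of_nonneg_left h1 (wprod_nonneg _ _)

lemma w_mul_Plo {q : ℕ} (hq : 5 ≤ q) : w q * Plo q ≤ 1 := by
  have h5 : (5 : ℝ) ≤ q := by exact_mod_cast hq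
  have h : ∀ N : ℕ, wprod q N * Plo q ≤ 1 + 2 / ((q : ℝ) + 2 * N) := fun N =>
    (wprod_mul_Plo hq N).trans (Plo_le (by linarith [(Nat.cast_nonneg N : (0 : ℝ) ≤ N)]))
  have h1 : Tendsto (fun N : ℕ => (q : ℝ) + 2 * (N : ℝ)) atTop atTop :=
    tendsto_atTop_add_const_left _ _ (tendsto_natCast_atTop_atTop.const_mul_atTop two_pos)
  have h2 := (h1.const_div_atTop 2).const_add 1
  rw [add_zero] at h2
  exact le_of_tendsto_of_tendsto' ((tendsto_wprod q).mul_const _) h2 h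

lemma wprod_mul_Phi {q : ℕ} (hq : 5 ≤ q) (N : ℕ) : 1 ≤ wprod q N * Phi q := by
  induction N generalizing q with
  | zero => simpa [wprod] using one_le_Phi (x := (q : ℝ)) (by exact_mod_cast hq)
  | succ N ih =>
    have h1 := Phi_step (x := (q : ℝ)) (by exact_mod_cast hq)
    have h2 := ih (q := q + 2) (by omega)
    push_cast at h2
    rw [wprod]
    calc (1 : ℝ) ≤ wprod (q + 2) N * Phi ((q : ℝ) + 2) := h2
      _ ≤ wprod (q + 2) N * (fac q * Phi q) := mul_le_mul_of_nonneg_left h1 (wprod_nonneg _ _)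
      _ = _ := by ring

lemma w_mul_Phi {q : ℕ} (hq : 5 ≤ q) : 1 ≤ w q * Phi q :=
  ge_of_tendsto' ((tendsto_wprod q).mul_const _) (wprod_mul_Phi hq)

lemma w_pos {q : ℕ} (hq : 5 ≤ q) : 0 < w q := by
  have h := w_mul_Phi hq
  have h0 : 0 ≤ w q := le_ciInf fun N => wprod_nonneg q N
  rcases h0.eq_or_lt with e | e
  · rw [← e, zero_mul] at h; linarith
  · exact e

/-- The normalisation. -/
def A : ℝ := 13 / 6000 * w 5

/-- The constant of the certificate. -/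
def a : ℝ := 39 / 1000 * w 5 / w 6

/-- The coefficients. -/
def u : ℕ → ℝ
  | 0 => 13 / 1200
  | 1 => a / 3
  | j + 2 => (((j : ℝ) + 8) ^ 2 + 3) / ((j : ℝ) + 7) ^ 2 * u j

lemma A_pos : 0 < A := mul_pos (by norm_num) (w_pos le_rfl)

lemma u_eq (j : ℕ) : u j = A * ((j : ℝ) + 5) / w (j + 5) := by
  induction j using Nat.twoStepInduction with
  | zero =>
    rw [u, A]
    have := (w_pos (q := 5) le_rfl).ne'
    simp only [Nat.zero_add, Nat.cast_zero]
    field_simp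
    ring
  | one =>
    rw [u, A, a, show 1 + 5 = 6 from rfl]
    have := (w_pos (q := 6) (by norm_num)).ne'
    push_cast
    field_simp
    ring
  | more j ih _ =>
    rw [u, ih, w_rec (j + 5), fac, show j + 5 + 2 = j + 2 + 5 from rfl]
    have h7 := (w_pos (q := j + 2 + 5) (by omega)).ne'
    have hj : (0 : ℝ) ≤ j := Nat.cast_nonneg j
    have hf : ((j : ℝ) + 7) ^ 3 - 8 ≠ 0 := by
      have : (7 : ℝ) ^ 3 ≤ ((j : ℝ) + 7) ^ 3 := pow_le_pow_left₀ (by norm_num) (by linarith) 3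
      intro; linarith
    push_cast
    rw [show (j : ℝ) + 5 + 2 = j + 7 by ring, one_sub_div (by positivity)]
    field_simp
    ring

lemma w_five : w 5 = fac 5 * (fac 7 * (fac 9 * (fac 11 * (fac 13 * w 15)))) := by
  rw [w_rec 5, w_rec 7, w_rec 9, w_rec 11, w_rec 13]

lemma w_six : w 6 = fac 6 * (fac 8 * (fac 10 * (fac 12 * (fac 14 * w 16)))) := by
  rw [w_rec 6, w_rec 8, w_rec 10, w_rec 12, w_rec 14]

lemma A_le : A ≤ 20533 / 10000000 := by
  have := w_mul_Plo (q := 15) (by norm_num)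
  rw [A, w_five]
  norm_num [fac, Plo] at this ⊢
  linarith

lemma a_bounds : 38446 / 1000000 ≤ a ∧ a ≤ 38448 / 1000000 := by
  have h1 := w_mul_Plo (q := 15) (by norm_num)
  have h2 := w_mul_Plo (q := 16) (by norm_num)
  have h3 := w_mul_Phi (q := 15) (by norm_num)
  have h4 := w_mul_Phi (q := 16) (by norm_num)
  have h6 := w_pos (q := 6) (by norm_num)
  rw [a, le_div_iff₀ h6, div_le_iff₀ h6, w_five, w_six]
  norm_num [fac, Plo, Phi] at h1 h2 h3 h4 ⊢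
  constructor <;> linarith

lemma u_bounds (j : ℕ) : A * (((j : ℝ) + 5) * Plo ((j : ℝ) + 5)) ≤ u j ∧
    u j ≤ A * (((j : ℝ) + 5) * Phi ((j : ℝ) + 5)) := by
  have h1 := w_mul_Plo (q := j + 5) (by omega)
  have h2 := w_mul_Phi (q := j + 5) (by omega)
  have h3 := w_pos (q := j + 5) (by omega)
  push_cast at h1 h2
  rw [u_eq, le_div_iff₀ h3, div_le_iff₀ h3]
  have hq : 0 ≤ A * ((j : ℝ) + 5) := mul_nonneg A_pos.le (by positivity)
  constructor <;> nlinarith [mul_le_mul_of_nonneg_left h1 hq, mul_le_mul_of_nonneg_left h2 hq]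

lemma u_nonneg (j : ℕ) : 0 ≤ u j := by
  have h := Plo_pos (x := (j : ℝ) + 5) (by linarith [(Nat.cast_nonneg j : (0 : ℝ) ≤ j)])
  exact le_trans (mul_nonneg A_pos.le (mul_nonneg (by positivity) h.le)) (u_bounds j).1

lemma polyBdd_u : PolyBdd u := ⟨10 * A, 1, fun j => by
  have hj : (0 : ℝ) ≤ j := Nat.cast_nonneg j
  rw [abs_of_nonneg (u_nonneg j), pow_one]
  refine (u_bounds j).2.trans ?_
  have hP : Phi ((j : ℝ) + 5) ≤ 2 := by
    rw [← sub_nonneg, Phi]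
    field_simp
    ring_nf
    positivity
  have := mul_le_mul_of_nonneg_left hP (show (0 : ℝ) ≤ A * ((j : ℝ) + 5) from
    mul_nonneg A_pos.le (by linarith))
  nlinarith [mul_nonneg A_pos.le hj, A_pos]⟩

/-- The coefficients of the second derivative of the end-point weight, from the third on. -/
def Gs (j : ℕ) : ℝ :=
  32 * ((j : ℝ) + 4) * ((j : ℝ) + 7) * ((j : ℝ) + 5) ^ 2 / (((j : ℝ) + 8) ^ 2 + 3) * u (j + 2)

lemma polyBdd_Gs : PolyBdd Gs :=
  polyBdd_u.succ.succ.mul_poly (D := 3200) (m := 2) fun j => by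
    have h0 : (0 : ℝ) ≤ j := Nat.cast_nonneg j
    rw [abs_of_nonneg (by positivity), div_le_iff₀ (by positivity)]
    nlinarith [mul_nonneg h0 h0, mul_nonneg (mul_nonneg h0 h0) h0,
      mul_nonneg (mul_nonneg h0 h0) (mul_nonneg h0 h0)]

/-- Third differences of a sequence close to `A (quadratic + al/q + be/(q(q+1)))`, `q = j + sh`. -/
lemma tail_bound {T : ℕ → ℝ} {sh : ℕ} {A c2 c1 c0 al be C : ℝ} (hA : 0 < A) (hC : 0 ≤ C)
    (hsh : 1 ≤ sh) (h : ∀ j, 3 ≤ j → |T j - A * (c2 * ((j : ℝ) + sh) ^ 2 + c1 * ((j : ℝ) + sh) + c0 + al / ((j : ℝ) + sh) +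
      be / (((j : ℝ) + sh) * ((j : ℝ) + sh + 1)))| ≤ A * C / ((j : ℝ) + sh) ^ 3) :
    Summable (fun j => |D3 T (j + 6)|) ∧ ∑' j, |D3 T (j + 6)| ≤ A *
      (6 * |al| / (sh + 3 : ℝ) + 24 * |be| / (sh + 3 : ℝ) ^ 2 + 8 * C) /
        (2 * ((sh : ℝ) + 2) * ((sh : ℝ) + 3)) := by
  set p0 : ℝ := (sh : ℝ) + 3 with hp0
  have hsh' : (1 : ℝ) ≤ sh := by exact_mod_cast hsh
  set M := A * (6 * |al| / p0 + 24 * |be| / p0 ^ 2 + 8 * C) with hM
  have hM0 : 0 ≤ M := by positivity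
  have hterm : ∀ i : ℕ, |D3 T (i + 6)| ≤ M * (1 / (p0 + i) ^ 3) := by
    intro i
    obtain ⟨P, hP⟩ : ∃ P, P = p0 + (i : ℝ) := ⟨_, rfl⟩
    have hp : p0 ≤ P := by rw [hP]; linarith [(Nat.cast_nonneg i : (0 : ℝ) ≤ i)]
    have hp00 : 0 < p0 := by linarith
    have hPpos : 0 < P := by linarith
    set θ : ℕ → ℝ := fun j => T j - A * (c2 * ((j : ℝ) + sh) ^ 2 + c1 * ((j : ℝ) + sh) + c0 +
      al / ((j : ℝ) + sh) + be / (((j : ℝ) + sh) * ((j : ℝ) + sh + 1))) with hθ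
    have hθb : ∀ k : ℕ, k ≤ 3 → |θ (i + 3 + k)| ≤ A * C / P ^ 3 := by
      intro k _
      refine (h _ (by omega)).trans (div_le_div_of_nonneg_left (by positivity) (by positivity) ?_)
      refine pow_le_pow_left₀ hPpos.le ?_ 3
      rw [hP, hp0]; push_cast; linarith [(Nat.cast_nonneg k : (0 : ℝ) ≤ k)]
    have e : D3 T (i + 6) = θ (i + 6) - 3 * θ (i + 5) + 3 * θ (i + 4) - θ (i + 3) +
        A * (al * (1 / (P + 3) - 3 / (P + 2) + 3 / (P + 1) - 1 / P) +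
          be * (1 / ((P + 3) * (P + 4)) - 3 / ((P + 2) * (P + 3)) + 3 / ((P + 1) * (P + 2)) -
            1 / (P * (P + 1)))) := by
      simp only [D3, D1, hθ]
      subst hP
      simp only [hp0]
      push_cast
      ring
    rw [e]
    refine (abs_add_le _ _).trans ?_
    have t1 := hθb 3 le_rfl
    have t2 := hθb 2 (by norm_num)
    have t3 := hθb 1 (by norm_num)
    have t4 := hθb 0 (by norm_num)
    simp only [add_assoc, Nat.reduceAdd, add_zero] at t1 t2 t3 t4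
    have s1 : |θ (i + 6) - 3 * θ (i + 5) + 3 * θ (i + 4) - θ (i + 3)| ≤ 8 * (A * C / P ^ 3) := by
      rw [abs_le] at t1 t2 t3 t4 ⊢
      constructor <;> linarith
    have s2 : |A * (al * (1 / (P + 3) - 3 / (P + 2) + 3 / (P + 1) - 1 / P) +
          be * (1 / ((P + 3) * (P + 4)) - 3 / ((P + 2) * (P + 3)) + 3 / ((P + 1) * (P + 2)) -
            1 / (P * (P + 1))))| ≤ A * (6 * |al| / p0 + 24 * |be| / p0 ^ 2) / P ^ 3 := by
      rw [abs_mul, abs_of_pos hA, mul_div_assoc]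
      refine mul_le_mul_of_nonneg_left ((diff3_approx al be hPpos).trans ?_) hA.le
      rw [add_div, div_div, div_div]
      refine add_le_add (div_le_div_of_nonneg_left (by positivity) (by positivity) ?_)
        (div_le_div_of_nonneg_left (by positivity) (by positivity) ?_)
      · rw [show P ^ 4 = P * P ^ 3 by ring]; gcongr
      · rw [show P ^ 5 = P ^ 2 * P ^ 3 by ring]; gcongr
    refine (add_le_add s1 s2).trans (le_of_eq ?_)
    rw [hM, ← hP]
    ring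
  have hb : ∀ N, ∑ i ∈ Finset.range N, |D3 T (i + 6)| ≤ M / (2 * ((sh : ℝ) + 2) * p0) := by
    intro N
    refine (Finset.sum_le_sum fun i _ => hterm i).trans ?_
    rw [← Finset.mul_sum, div_eq_mul_one_div M]
    refine mul_le_mul_of_nonneg_left ((sum_inv_cube p0 (by linarith) N).trans ?_) hM0
    rw [show p0 - 1 = (sh : ℝ) + 2 by ring]
    have hN : (0 : ℝ) ≤ N := Nat.cast_nonneg N
    have : 0 < p0 + N - 1 := by linarith
    have : 0 ≤ 1 / (2 * (p0 + N - 1) * (p0 + N)) := by positivity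
    linarith
  exact ⟨summable_of_sum_range_le (fun i => abs_nonneg _) hb,
    Real.tsum_le_of_sum_range_le (fun i => abs_nonneg _) hb⟩

lemma approx_u {x : ℝ} (hx : 5 ≤ x) :
    |x * Plo x - (x + 2 / x + (-4) / (x * (x + 1)))| ≤ 2 / x ^ 3 ∧
      |x * Phi x - (x + 2 / x + (-4) / (x * (x + 1)))| ≤ 2 / x ^ 3 := by
  obtain ⟨t, ht, rfl⟩ : ∃ t, 0 ≤ t ∧ x = 5 + t := ⟨x - 5, by linarith, by ring⟩
  rw [abs_le, abs_le]
  refine ⟨⟨?_, ?_⟩, ?_, ?_⟩ <;>
  · rw [← sub_nonneg]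
    simp only [Plo, Phi]
    field_simp
    ring_nf
    positivity

lemma approx_du {x : ℝ} (hx : 6 ≤ x) :
    |(x - 5) * (x * Plo x) - (x ^ 2 - 5 * x + 2 + (-14) / x + 26 / (x * (x + 1)))| ≤ 10 / x ^ 3 ∧
      |(x - 5) * (x * Phi x) - (x ^ 2 - 5 * x + 2 + (-14) / x + 26 / (x * (x + 1)))| ≤
        10 / x ^ 3 := by
  obtain ⟨t, ht, rfl⟩ : ∃ t, 0 ≤ t ∧ x = 6 + t := ⟨x - 6, by linarith, by ring⟩
  rw [abs_le, abs_le]
  refine ⟨⟨?_, ?_⟩, ?_, ?_⟩ <;>
  · rw [← sub_nonneg]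
    simp only [Plo, Phi]
    field_simp
    ring_nf
    positivity

/-- Cubic approximation of `Gs / A`. -/
def model (x : ℝ) : ℝ :=
  32 * x ^ 3 - 288 * x ^ 2 + 1024 * x - 1856 + 1728 / x - 1728 / 5 / x ^ 2

lemma approx_G {x : ℝ} (hx : 7 ≤ x) :
    |32 * (x - 3) * x * (x - 2) ^ 2 / ((x + 1) ^ 2 + 3) * (x * Plo x) - model x| ≤ 760 / x ^ 3 ∧
      |32 * (x - 3) * x * (x - 2) ^ 2 / ((x + 1) ^ 2 + 3) * (x * Phi x) - model x| ≤
        760 / x ^ 3 := by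
  obtain ⟨t, ht, rfl⟩ : ∃ t, 0 ≤ t ∧ x = 7 + t := ⟨x - 7, by linarith, by ring⟩
  rw [abs_le, abs_le]
  refine ⟨⟨?_, ?_⟩, ?_, ?_⟩ <;>
  · rw [← sub_nonneg]
    simp only [Plo, Phi, model]
    field_simp
    ring_nf
    positivity

lemma model_diff {x : ℝ} (hx : 10 ≤ x) :
    |model x - model (x - 1) -
      (96 * x ^ 2 + (-672) * x + 1344 + 0 / x + (-1728) / (x * (x + 1)))| ≤ 3000 / x ^ 3 := by
  obtain ⟨t, ht, rfl⟩ : ∃ t, 0 ≤ t ∧ x = 10 + t := ⟨x - 10, by linarith, by ring⟩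
  rw [abs_le]
  refine ⟨?_, ?_⟩ <;>
  · rw [← sub_nonneg]
    simp only [model, show (10 : ℝ) + t - 1 = 9 + t by ring]
    field_simp
    ring_nf
    positivity

lemma Gs_near {i : ℕ} :
    |Gs i - A * model ((i : ℝ) + 7)| ≤ A * (760 / ((i : ℝ) + 7) ^ 3) := by
  obtain ⟨b1, b2⟩ := u_bounds (i + 2)
  push_cast at b1 b2
  rw [show (i : ℝ) + 2 + 5 = i + 7 by ring] at b1 b2
  obtain ⟨a1, a2⟩ := approx_G (x := (i : ℝ) + 7) (by linarith [(Nat.cast_nonneg i : (0 : ℝ) ≤ i)])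
  rw [show (i : ℝ) + 7 - 3 = i + 4 by ring, show (i : ℝ) + 7 - 2 = i + 5 by ring,
    show (i : ℝ) + 7 + 1 = i + 8 by ring] at a1 a2
  set K := 32 * ((i : ℝ) + 4) * ((i : ℝ) + 7) * ((i : ℝ) + 5) ^ 2 / (((i : ℝ) + 8) ^ 2 + 3)
  have hK : 0 ≤ K := by positivity
  refine squeeze (l := A * (K * (((i : ℝ) + 7) * Plo ((i : ℝ) + 7))))
    (h := A * (K * (((i : ℝ) + 7) * Phi ((i : ℝ) + 7)))) ⟨?_, ?_⟩ ?_ ?_
  · rw [mul_left_comm]; exact mul_le_mul_of_nonneg_left b1 hK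
  · rw [mul_left_comm]; exact mul_le_mul_of_nonneg_left b2 hK
  · rw [← mul_sub, abs_mul, abs_of_pos A_pos]
    exact mul_le_mul_of_nonneg_left a1 A_pos.le
  · rw [← mul_sub, abs_mul, abs_of_pos A_pos]
    exact mul_le_mul_of_nonneg_left a2 A_pos.le

lemma near_u : Summable (fun j => |D3 u j|) ∧ ∑' j, |D3 u (j + 3)| ≤ 40 / 100000 := by
  obtain ⟨h1, h2⟩ := tail_bound (T := u) (sh := 5) (c2 := 0) (c1 := 1) (c0 := 0) (al := 2)
    (be := -4) (C := 2) A_pos (by norm_num) (by norm_num) fun j _ => by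
      obtain ⟨a1, a2⟩ := approx_u (x := (j : ℝ) + 5) (by linarith [(Nat.cast_nonneg j : (0:ℝ) ≤ j)])
      rw [mul_div_assoc]
      refine squeeze (u_bounds j) ?_ ?_ <;>
        rw [← mul_sub, abs_mul, abs_of_pos A_pos] <;>
        refine mul_le_mul_of_nonneg_left ?_ A_pos.le
      · push_cast; exact le_of_eq_of_le (congrArg abs (by ring)) a1
      · push_cast; exact le_of_eq_of_le (congrArg abs (by ring)) a2
  refine tail_split h1 ?_
  obtain ⟨hl, hh⟩ := a_bounds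
  have b3 : |D3 u 3| ≤ 2 / 100000 := by
    rw [abs_le]; norm_num [D3, D1, u]; constructor <;> linarith
  have b4 : |D3 u 4| ≤ 1 / 100000 := by
    rw [abs_le]; norm_num [D3, D1, u]; constructor <;> linarith
  have b5 : |D3 u 5| ≤ 1 / 100000 := by
    rw [abs_le]; norm_num [D3, D1, u]; constructor <;> linarith
  norm_num at h2
  linarith [A_le]

lemma near_du : Summable (fun j => |D3 (dT u) j|) ∧ ∑' j, |D3 (dT u) (j + 3)| ≤ 160 / 100000 := by
  obtain ⟨h1, h2⟩ := tail_bound (T := dT u) (sh := 6) (c2 := 1) (c1 := -5) (c0 := 2) (al := -14)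
    (be := 26) (C := 10) A_pos (by norm_num) (by norm_num) fun j _ => by
      have hj : (0 : ℝ) ≤ j := Nat.cast_nonneg j
      obtain ⟨a1, a2⟩ := approx_du (x := (j : ℝ) + 6) (by linarith)
      obtain ⟨b1, b2⟩ := u_bounds (j + 1)
      push_cast at b1 b2
      rw [show (j : ℝ) + 1 + 5 = j + 6 by ring] at b1 b2
      rw [mul_div_assoc]
      refine squeeze (l := A * (((j : ℝ) + 1) * (((j : ℝ) + 6) * Plo ((j : ℝ) + 6))))
        (h := A * (((j : ℝ) + 1) * (((j : ℝ) + 6) * Phi ((j : ℝ) + 6)))) ⟨?_, ?_⟩ ?_ ?_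
      · rw [dT, mul_left_comm]; exact mul_le_mul_of_nonneg_left b1 (by linarith)
      · rw [dT, mul_left_comm]; exact mul_le_mul_of_nonneg_left b2 (by linarith)
      · rw [← mul_sub, abs_mul, abs_of_pos A_pos]
        refine mul_le_mul_of_nonneg_left ?_ A_pos.le
        push_cast
        exact le_of_eq_of_le (congrArg abs (by ring)) a1
      · rw [← mul_sub, abs_mul, abs_of_pos A_pos]
        refine mul_le_mul_of_nonneg_left ?_ A_pos.le
        push_cast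
        exact le_of_eq_of_le (congrArg abs (by ring)) a2
  refine tail_split h1 ?_
  obtain ⟨hl, hh⟩ := a_bounds
  have b3 : |D3 (dT u) 3| ≤ 10 / 100000 := by
    rw [abs_le]; norm_num [D3, D1, dT, u]; constructor <;> linarith
  have b4 : |D3 (dT u) 4| ≤ 5 / 100000 := by
    rw [abs_le]; norm_num [D3, D1, dT, u]; constructor <;> linarith
  have b5 : |D3 (dT u) 5| ≤ 5 / 100000 := by
    rw [abs_le]; norm_num [D3, D1, dT, u]; constructor <;> linarith
  norm_num at h2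
  linarith [A_le]

lemma near_Gs :
    Summable (fun j => |D3 (D1 Gs) j|) ∧ ∑' j, |D3 (D1 Gs) (j + 3)| ≤ 3 := by
  obtain ⟨h1, h2⟩ := tail_bound (T := D1 Gs) (sh := 7) (c2 := 96) (c1 := -672) (c0 := 1344)
    (al := 0) (be := -1728) (C := 5000) A_pos (by norm_num) (by norm_num) fun j hj => by
      obtain ⟨i, rfl⟩ : ∃ i, j = i + 1 := ⟨j - 1, by omega⟩
      have hi : (2 : ℝ) ≤ i := by exact_mod_cast (by omega : 2 ≤ i)
      show |Gs (i + 1) - Gs i - _| ≤ _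
      have n1 := abs_le.1 (Gs_near (i := i + 1))
      have n0 := abs_le.1 (Gs_near (i := i))
      have md := abs_le.1 (model_diff (x := (i : ℝ) + 8) (by linarith))
      have m1 := mul_le_mul_of_nonneg_left md.1 A_pos.le
      have m2 := mul_le_mul_of_nonneg_left md.2 A_pos.le
      push_cast at n1 n0 m1 m2 ⊢
      rw [show (i : ℝ) + 8 - 1 = i + 7 by ring] at m1 m2
      rw [show (i : ℝ) + 1 + 7 = i + 8 by ring] at n1 ⊢
      have h87 : A * (760 / ((i : ℝ) + 7) ^ 3) ≤ A * (1240 / ((i : ℝ) + 8) ^ 3) := by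
        refine mul_le_mul_of_nonneg_left ?_ A_pos.le
        rw [div_le_div_iff₀ (by positivity) (by positivity)]
        nlinarith [mul_nonneg (mul_nonneg (by linarith : (0 : ℝ) ≤ i) (by linarith : (0 : ℝ) ≤ i))
          (by linarith : (0 : ℝ) ≤ i)]
      have e : A * (760 / ((i : ℝ) + 8) ^ 3) + A * (1240 / ((i : ℝ) + 8) ^ 3) +
          A * (3000 / ((i : ℝ) + 8) ^ 3) = A * 5000 / ((i : ℝ) + 8) ^ 3 := by ring
      rw [abs_le]
      constructor <;> linarith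
  refine tail_split h1 ?_
  obtain ⟨hl, hh⟩ := a_bounds
  have b3 : |D3 (D1 Gs) 3| ≤ 235 / 100 := by
    rw [abs_le]; norm_num [D3, D1, Gs, u]; constructor <;> linarith
  have b4 : |D3 (D1 Gs) 4| ≤ 1 / 100 := by
    rw [abs_le]; norm_num [D3, D1, Gs, u]; constructor <;> linarith
  have b5 : |D3 (D1 Gs) 5| ≤ 1 / 100 := by
    rw [abs_le]; norm_num [D3, D1, Gs, u]; constructor <;> linarith
  norm_num at h2
  linarith [A_le]

/-- The leading coefficients. -/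
lemma heads : D3 u 0 = 13 / 1200 ∧ D3 u 1 = a / 3 - 13 / 400 ∧
    D3 u 2 = 67 / 49 * (13 / 1200) + 13 / 400 - a ∧
    D3 (dT u) 0 = a / 3 ∧ D3 (dT u) 1 = 67 / 49 * (13 / 600) - a ∧
    D3 (dT u) 2 = 37 / 16 * a - 67 / 49 * (13 / 200) ∧
    (1 : ℝ) ≤ D3 (D1 Gs) 0 ∧ D3 (D1 Gs) 1 ≤ -8 ∧ (7 : ℝ) ≤ D3 (D1 Gs) 2 := by
  obtain ⟨hl, hh⟩ := a_bounds
  refine ⟨?_, ?_, ?_, ?_, ?_, ?_, ?_, ?_, ?_⟩ <;> norm_num [D3, D1, dT, Gs, u] <;>
    linarith

end

end Vale.Agent.P219.CH.Cert.Seven
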